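import Vale.Agent.P354CB.Ez

/-!
SYMM: a common development is injective, and its inverse is a common development.
-/

open Set Filter Topology

namespace Vale.Agent.P354CB78

open Vale.Agent.P354n
open Vale.Agent.P354CB
open Vale.Agent.P354I (X Dat)

variable {M N : Spc} {S U : Set M.pt} {ψ : M.pt → N.pt}

/-- A local inverse inside U. -/
theorem loc_inv (K : LK2) (hM : St M) (hN : St N) (hU : IsOpen U) (lm : ∀ x ∈ U, LM ψ x)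
    {x : M.pt} (hx : x ∈ U) : ∃ (W : Set M.pt) (φ : N.pt → M.pt), W ∈ 𝓝 x ∧ W ⊆ U ∧
      ψ '' W ∈ 𝓝 (ψ x) ∧ ∀ z ∈ W, φ (ψ z) = z ∧ LM φ (ψ z) := by
  obtain ⟨W, φ, w1, w2, w3, w4⟩ := K.inv hM hN (ψ := ψ) (x := x)
    (Filter.mem_of_superset (hU.mem_nhds hx) lm)
  refine ⟨W ∩ U, φ, inter_mem (w1.mem_nhds w2) (hU.mem_nhds hx), inter_subset_right, ?_,
    fun z hz => (w4 z hz.1).2⟩
  have c : φ ⁻¹' U ∈ 𝓝 (ψ x) :=
    (w4 x w2).2.2.1.preimage_mem_nhds (by rw [(w4 x w2).2.1]; exact hU.mem_nhds hx)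
  filter_upwards [w3.mem_nhds ⟨x, w2, rfl⟩, c]
  rintro _ ⟨z, hz, rfl⟩ k
  exact ⟨z, ⟨hz, by rwa [mem_preimage, (w4 z hz).2.1] at k⟩, rfl⟩

/-- The causal past of a point of U, above S, lies in U. -/
theorem le_mem (L : L1) (hM : St M) (H : Hull M S U) {x y : M.pt} (hy : y ∈ U)
    (hx : x ∉ Pa M S) (k : Le M x y) : x ∈ U := by
  obtain ⟨z, z1, z2⟩ := mem_closure_iff_nhds.1 (L.b.nearF hM y) U (H.op.mem_nhds hy)
  exact H.dn z z1 x (k.1 z z2) hx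

/-- Injectivity in the future of S. -/
theorem inj_fu (Z : L0) (gM : GH0 M S) (hN : St N) (H : Hull M S U) (lm : ∀ x ∈ U, LM ψ x)
    (sd : ∀ x ∈ U, ∀ x' ∈ U, ψ x = ψ x' → x ∈ Pa M S → x' ∈ Pa M S)
    (hs : ∀ s ∈ S, s ∈ U → ∀ x ∈ U, ψ x = ψ s → x = s) {x1 x2 : M.pt} (h1 : x1 ∈ U)
    (h2 : x2 ∈ U) (f1 : x1 ∈ Fu M S) (f2 : x2 ∉ Pa M S) (he : ψ x1 = ψ x2) : x1 = x2 := by
  by_contra ne
  have L := Z.l1
  have hM := gM.st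
  have G := Z.l2.g1 M S gM
  obtain ⟨s, s1, c, hc, rfl, rfl⟩ := f1
  have cU : MapsTo c (Icc 0 1) U := L.in_dn hM H hc (L1.s_fu G s1).2 h1
  have cP : ∀ t ∈ Icc (0 : ℝ) 1, c t ∉ Pa M S := fun t ht => by
    rcases ht.1.eq_or_lt with rfl | l
    · exact (L1.s_fu G s1).2
    · exact L.fu_pa hM G ⟨_, s1, L.b.ll_cv hM hc (Icc_subset_Icc_right ht.2) l⟩
  set J : Set M.pt := {x | x ∉ Pa M S ∧ Le M x x2} with hJ
  have JU : J ⊆ U := fun x hx => le_mem L hM H h2 hx.1 hx.2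
  have Jc : IsCompact J := (Z.l2.g2 M S gM).cpt x2
  have ψc : ContinuousOn ψ U := fun x hx => (lm x hx).1.continuousWithinAt
  set K : Set (ℝ × M.pt) := {q | q ∈ Icc (0 : ℝ) 1 ×ˢ J ∧ ψ q.2 = ψ (c q.1) ∧ q.2 ≠ c q.1} with hK
  have Kc : IsCompact K := by
    refine (isCompact_Icc.prod Jc).of_isClosed_subset ?_ fun q hq => hq.1
    refine isClosed_of_closure_subset fun q hq => ?_
    have q1 : q ∈ Icc (0 : ℝ) 1 ×ˢ J :=
      closure_minimal (fun q hq => hq.1) (isClosed_Icc.prod Jc.isClosed) hq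
    have ne := mem_closure_iff_nhdsWithin_neBot.1 hq
    have t1 : Tendsto (fun q : ℝ × M.pt => c q.1) (𝓝[K] q) (𝓝 (c q.1)) :=
      (hc.1 q.1 q1.1).tendsto.comp (tendsto_nhdsWithin_iff.2
        ⟨continuous_fst.continuousAt.mono_left nhdsWithin_le_nhds,
          eventually_mem_nhdsWithin.mono fun q hq => hq.1.1⟩)
    have t2 : Tendsto (fun q : ℝ × M.pt => q.2) (𝓝[K] q) (𝓝 q.2) :=
      continuous_snd.continuousAt.mono_left nhdsWithin_le_nhds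
    refine ⟨q1, tendsto_nhds_unique ((lm _ (JU q1.2)).1.tendsto.comp t2)
      (((lm _ (cU q1.1)).1.tendsto.comp t1).congr'
        (eventually_mem_nhdsWithin.mono fun q hq => hq.2.1.symm)), fun e => ?_⟩
    obtain ⟨W, φ, w1, -, -, w4⟩ := loc_inv Z.k2 hM hN H.op lm (JU q1.2)
    obtain ⟨r, r1, r2, r3⟩ := ((t2.eventually w1).and ((t1.eventually (e ▸ w1)).and
      (eventually_mem_nhdsWithin (s := K)))).exists
    exact r3.2.2 (by rw [← (w4 _ r1).1, r3.2.1, (w4 _ r2).1])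
  obtain ⟨⟨t, x⟩, ⟨⟨ht, hx⟩, e, n⟩, hm⟩ := Kc.exists_isMinOn
    ⟨(1, x2), ⟨right_mem_Icc.2 zero_le_one, f2, Le.rfl⟩, he.symm, Ne.symm ne⟩
    continuous_fst.continuousOn
  rcases ht.1.eq_or_lt with rfl | l
  · exact n (hs _ s1 (cU ht) _ (JU hx) e)
  obtain ⟨W, φ, w1, w2, w3, w4⟩ := loc_inv Z.k2 hM hN H.op lm (JU hx)
  have xW := mem_of_mem_nhds w1
  have tc : Tendsto c (𝓝[Icc 0 1] t) (𝓝 (c t)) := hc.1 t ht
  have t1 : Tendsto (fun u => ψ (c u)) (𝓝[Icc 0 1] t) (𝓝 (ψ x)) :=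
    e ▸ (lm _ (cU ht)).1.tendsto.comp tc
  have t2 : Tendsto (fun u => φ (ψ (c u))) (𝓝[Icc 0 1] t) (𝓝 x) := by
    have := (w4 x xW).2.1.tendsto.comp t1
    rwa [(w4 x xW).1] at this
  have ev : ∀ᶠ u in 𝓝[Icc 0 1] t, ψ (c u) ∈ ψ '' W ∧ φ (ψ (c u)) ≠ c u :=
    (t1.eventually w3).and ((t2.prodMk_nhds tc).eventually
      (isClosed_diagonal.isOpen_compl.mem_nhds (show (x, c t) ∉ diagonal _ from n)))
  obtain ⟨u, u1, u2⟩ : ∃ u ∈ Ico 0 t, ∀ v ∈ Icc u t,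
      ψ (c v) ∈ ψ '' W ∧ φ (ψ (c v)) ≠ c v := by
    obtain ⟨u, u1, u2⟩ := (mem_nhdsLE_iff_exists_mem_Ico_Ioc_subset l).1
      (nhdsWithin_le_iff.2 (Icc_mem_nhdsLE_of_mem ⟨l, ht.2⟩) ev)
    obtain ⟨v, v1, v2⟩ := exists_between u1.2
    exact ⟨v, ⟨u1.1.trans v1.le, v2⟩, fun w hw => u2 ⟨v1.trans_le hw.1, hw.2⟩⟩
  have sub : Icc u t ⊆ Icc 0 1 := Icc_subset_Icc u1.1 ht.2
  have ud := uniqueDiffOn_Icc u1.2
  have cv : Cv M (Icc u t) fun v => φ (ψ (c v)) :=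
    Z.k1.curve hN hM ud (Z.k1.curve hM hN ud (L.b.mono hc sub ud) fun v hv => lm _ (cU (sub hv)))
      fun v hv => by
        obtain ⟨z, z1, z2⟩ := (u2 v hv).1
        exact z2 ▸ (w4 z z1).2
  have ll := L.b.ll_cv hM cv Subset.rfl u1.2
  have uI := left_mem_Icc.2 u1.2.le
  obtain ⟨⟨z, z1, z2⟩, z3⟩ := u2 u uI
  simp only [← z2, (w4 z z1).1] at ll z3
  rw [← e, (w4 x xW).1] at ll
  exact not_le.2 u1.2 (hm (a := (u, z)) ⟨⟨sub uI, fun k => cP u (sub uI)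
    (sd z (w2 z1) _ (cU (sub uI)) z2 k), (L.le hM ll).trans hx.2⟩, z2, z3⟩)

variable {d : Dat} {A B : LD d} {V : Set A.N.pt} {χ : A.N.pt → B.N.pt}

theorem inj (Z : L0) (hS : SIDE) (hd : P354J.PDy d) (C : Com A B V χ) : InjOn χ V := by
  have sd := hS d hd A B V χ C
  have hM := A.h.gh.st
  have hN := B.h.gh.st
  have b := Z.l1.b
  have G := Z.l2.g1 _ _ A.h.gh
  have hs : ∀ s ∈ A.S, s ∈ V → ∀ x ∈ V, χ x = χ s → x = s := fun s s1 s2 x x1 e => by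
    obtain ⟨y, y1, rfl⟩ := (sd x x1).1.2 (e ▸ (sd s s2).1.1 s1)
    obtain ⟨z, z1, rfl⟩ := s1
    obtain ⟨a1, a2⟩ := C.sl y y1 x1
    obtain ⟨b1, b2⟩ := C.sl z z1 s2
    rw [B.h.inj a1 b1 (by rw [← a2, ← b2, e])]
  have pa : ∀ x ∈ V, ∀ x' ∈ V, χ x = χ x' → x ∈ Pa A.N A.S → x' ∈ Pa A.N A.S :=
    fun x a x' a' e k => (sd x' a').2.2.2 (e ▸ (sd x a).2.2.1 k)
  have fu : ∀ x ∈ V, ∀ x' ∈ V, χ x = χ x' → x ∈ Fu A.N A.S → x' ∈ Fu A.N A.S :=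
    fun x a x' a' e k => (sd x' a').2.1.2 (e ▸ (sd x a).2.1.1 k)
  intro x1 h1 x2 h2 e
  rcases G.tri x1 with k | k | k
  · exact (hs x1 k h1 x2 h2 e.symm).symm
  · exact inj_fu Z A.h.gh hN C.hull C.lm pa hs h1 h2 k
      (Z.l1.fu_pa hM G (fu x1 h1 x2 h2 e k)) e
  · refine inj_fu (M := rev A.N) (N := rev B.N) (ψ := χ) Z (b.gh0_rev A.h.gh) (b.st_rev hN)
      ((b.hull_rev hM).2 C.hull) (fun x hx => (Z.k1.rev hN).2 (C.lm x hx)) ?_ hs h1 h2 ?_ ?_ e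
    · rw [b.pa_rev hM]; exact fu
    · rw [b.fu_rev hM]; exact k
    · rw [b.pa_rev hM]; exact fun m => Z.l1.fu_pa hM G m (pa x1 h1 x2 h2 e k)

theorem symm (Z : L0) (hS : SIDE) : SYMM := by
  intro d hd A B V χ C
  have sd := hS d hd A B V χ C
  have hM := A.h.gh.st
  have hN := B.h.gh.st
  haveI : Nonempty A.N.pt := ⟨A.j 0⟩
  have li : ∀ x ∈ V, Function.invFunOn χ V (χ x) = x := (inj Z hS hd C).leftInvOn_invFunOn
  set φ := Function.invFunOn χ V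
  have lm : ∀ x ∈ χ '' V, LM φ x := by
    rintro _ ⟨x, hx, rfl⟩
    obtain ⟨W, φ', w1, w2, w3, w4⟩ := loc_inv Z.k2 hM hN C.hull.op C.lm hx
    refine Z.k1.congr (w4 x (mem_of_mem_nhds w1)).2 ?_
    filter_upwards [w3]
    rintro _ ⟨z, hz, rfl⟩
    rw [li z (w2 hz), (w4 z hz).1]
  have ri : ∀ x ∈ χ '' V, φ x ∈ V ∧ χ (φ x) = x := by
    rintro _ ⟨x, hx, rfl⟩
    rw [li x hx]
    exact ⟨hx, rfl⟩
  have op : IsOpen (χ '' V) := isOpen_iff_mem_nhds.2 (by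
    rintro _ ⟨x, hx, rfl⟩
    obtain ⟨W, φ', -, w2, w3, -⟩ := loc_inv Z.k2 hM hN C.hull.op C.lm hx
    exact mem_of_superset w3 (image_mono w2))
  refine ⟨φ, ⟨(Z.l2.g3 _ _ (Z.l2.ac d _ _ _ hd B.h)).of_meets _ op ?_, lm, ?_⟩, li⟩
  · intro a b c ab hc m n1 n2
    obtain ⟨t, t1, t2⟩ := (Z.l2.g3 _ _ (Z.l2.ac d _ _ _ hd A.h)).meets V C.hull a b
      (fun t => φ (c t)) ab (Z.k1.curve hN hM (uniqueDiffOn_Ioo a b) hc fun t ht => lm _ (m ht))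
      (fun t ht => (ri _ (m ht)).1)
      (fun x hx k => n1 _ ⟨x, hx, rfl⟩ (((C.lm x hx).1.tendsto.comp k).congr'
        (mem_of_superset (Ioo_mem_nhdsGT ab) fun t ht => (ri _ (m ht)).2)))
      (fun x hx k => n2 _ ⟨x, hx, rfl⟩ (((C.lm x hx).1.tendsto.comp k).congr'
        (mem_of_superset (Ioo_mem_nhdsLT ab) fun t ht => (ri _ (m ht)).2)))
    exact ⟨t, t1, (ri _ (m t1)).2 ▸ (sd _ (ri _ (m t1)).1).1.1 t2⟩
  · rintro y hy ⟨x, hx, e⟩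
    obtain ⟨z, z1, rfl⟩ := (sd x hx).1.2 (e ▸ ⟨y, hy, rfl⟩)
    obtain ⟨a1, a2⟩ := C.sl z z1 hx
    obtain rfl := B.h.inj a1 hy (a2.symm.trans e)
    exact ⟨z1, by rw [← e, li _ hx]⟩

end Vale.Agent.P354CB78
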