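import Vale.Agent.P354CB40.Inv

/-!
KS: a local isometry with bounded first jet along a punctured slice extends.
-/

open scoped ContDiff
open Set Filter Topology

namespace Vale.Agent.P354CB78

open Vale.Agent.P354n
open Vale.Agent.P354CB
open Vale.Agent.P354I (X Dat)
open Vale.Agent.P354XJ
open Vale.Agent.P354YC (LI Is IndAt GU iso_iff pull_of jetM)
open Vale.Agent.P354RC (at_df at_fd p_at)

theorem lim_eq {Z : Type} [TopologicalSpace Z] [T2Space Z] {f f' : X → Z} {y : X}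
    (a : ContinuousAt f y) (b : ContinuousAt f' y) (k : ∀ᶠ x in 𝓝[≠] y, f x = f' x) :
    f y = f' y :=
  tendsto_nhds_unique_of_eventuallyEq (l := 𝓝[≠] y) (a.mono_left nhdsWithin_le_nhds)
    (b.mono_left nhdsWithin_le_nhds) k

theorem fd_cont {J : X → R4} {y : X} (h : ContDiffAt ℝ ∞ J y) (u : X) :
    ContinuousAt (fun x => fderiv ℝ J x u) y :=
  (h.fderiv_right (m := 0) (by simp)).continuousAt.clm_apply continuousAt_const

theorem ks (K1 : LK1) (hG : GU) (h1 : KS1) (h2 : KS2) : KS := by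
  intro M N hM hN U ψ hU lm e e' J y K C y0 sJ Jy sp Kc Ks ev
  have l := hM.lor e
  have l' := hN.lor e'
  set F : R4 → R4 := fun z => co e' (ψ (inv e z)) with hF
  have nD : ∀ᶠ x in 𝓝 y, J x ∈ tgt e :=
    sJ.continuous.continuousAt.eventually_mem ((isOpen_tgt e).mem_nhds Jy)
  have n0 : ∀ᶠ x in 𝓝 y, x ≠ 0 := isOpen_compl_singleton.mem_nhds y0
  have e1 : ∀ᶠ x in 𝓝[≠] y, ∀ᶠ z in 𝓝 (J x), (z ∈ tgt e ∧ F z ∈ tgt e' ∧
      Is (M.g e) (M.X e) (N.g e') (N.X e') F z) ∧ inv e z ∈ U ∧ On e' (ψ (inv e z)) := by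
    filter_upwards [ev, nhdsWithin_le_nhds nD] with x a b
    filter_upwards [(isOpen_tgt e).mem_nhds b, (inv_cont b).eventually_mem (hU.mem_nhds a.1),
      ((lm _ a.1).1.comp (inv_cont b)).eventually (on_nhds a.2.1)] with z c1 c2 c3
    have := (lm _ c2).2 e e' (inv_mem c1) c3
    rw [co_inv c1] at this
    exact ⟨⟨c1, co_mem c3, iso_iff.1 this⟩, c2, c3⟩
  obtain ⟨J', s', k', eJ⟩ := h1 _ _ _ _ _ _ l l' J y F K C sJ Jy Kc Ks
    ((e1.and ev).mono fun x a => ⟨a.1.mono fun z b => b.1, a.2.2.2⟩)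
  have eJ' : ∀ x ≠ y, J' =ᶠ[𝓝 x] fun z => F (J z) := fun x hx =>
    mem_of_superset (isOpen_compl_singleton.mem_nhds hx) eJ
  have split : ∀ {p : X → Prop}, p y → (∀ᶠ x in 𝓝[≠] y, p x) → ∀ᶠ x in 𝓝 y, p x :=
    fun a b => by rw [← nhdsNE_sup_pure y]; exact ⟨b, a⟩
  have sJ' : ∀ᶠ x in 𝓝 y, ContDiffAt ℝ ∞ J' x := split s' (by
    filter_upwards [e1, self_mem_nhdsWithin] with x a b
    exact (a.self_of_nhds.1.2.2.1.comp x sJ.contDiffAt).congr_of_eventuallyEq (eJ' x b))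
  have nD' : ∀ᶠ x in 𝓝 y, J' x ∈ tgt e' :=
    s'.continuousAt.eventually_mem ((isOpen_tgt e').mem_nhds (Ks k'))
  obtain ⟨d, hd, I⟩ := (h2 _ _ _ l J y Jy).1 (.of_forall fun _ => sJ.contDiffAt) sp
  obtain ⟨d', hd', I'⟩ := (h2 _ _ _ l' J' y (Ks k')).1 sJ' fun u u0 => by
    refine (sp u u0).trans_eq (lim_eq
      (g_cont hM.sp Jy sJ.continuous.continuousAt (fd_cont sJ.contDiffAt u) (fd_cont sJ.contDiffAt u))
      (g_cont hN.sp (Ks k') s'.continuousAt (fd_cont s' u) (fd_cont s' u)) ?_)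
    filter_upwards [e1, self_mem_nhdsWithin] with x a b
    have c := a.self_of_nhds.1.2.2
    rw [(eJ' x b).fderiv_eq, eJ x b, c.2.1,
      fderiv_fun_comp x (at_df c.1) (sJ.differentiable (by simp) x)]
    rfl
  have I2 : ∀ᶠ x in 𝓝[≠] y, IndAt (N.g e') (N.X e') J' d x := by
    filter_upwards [e1, self_mem_nhdsWithin, nhdsWithin_le_nhds I] with x a b c
    obtain ⟨W, w1, w2, w3⟩ := eventually_nhds_iff.1 a
    exact c.pull l l' (pull_of l l' w2 fun p hp => (w1 p hp).1) (w1 _ w3).1.1 w3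
      (w1 _ w3).1.2.2.2.2 sJ.contDiffAt (eJ' x b).symm
  have dd : ∀ᶠ x in 𝓝[≠] y, d.h x = d'.h x ∧ d.K x = d'.K x := by
    filter_upwards [I2, nhdsWithin_le_nhds I', nhdsWithin_le_nhds nD', nhdsWithin_le_nhds n0]
      with x a b c z
    exact (h2 _ _ _ l' J' x c).2 d d' (hd.2 x z).1 a b
  have ca : ∀ {f : X → ℝ}, ContDiffOn ℝ ∞ f {0}ᶜ → ContinuousAt f y := fun a =>
    a.continuousOn.continuousAt n0
  have I3 : IndAt (N.g e') (N.X e') J' d y := by
    obtain ⟨G, n, a1, a2, a3, a4⟩ := I'.self_of_nhds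
    refine ⟨G, n, a1, a2, a3, fun i k => ⟨(a4 i k).1, (a4 i k).2.1.trans ?_,
      (a4 i k).2.2.trans ?_⟩⟩
    · exact lim_eq (ca (hd'.1 i k).1) (ca (hd.1 i k).1) (dd.mono fun x a => by rw [a.1])
    · exact lim_eq (ca (hd'.1 i k).2) (ca (hd.1 i k).2) (dd.mono fun x a => by rw [a.2])
  obtain ⟨O, o1, o2, o3⟩ := eventually_nhds_iff.1
    (n0.and (sJ'.and (nD.and (nD'.and (I.and (split I3 I2))))))
  obtain ⟨W, b, w1, w2, P, w3, w4⟩ := hG _ _ _ _ _ _ J J' d O l l' hd o2 (fun x a => (o1 x a).1)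
    sJ.contDiffOn (fun x a => (o1 x a).2.1.contDiffWithinAt) (fun x a => (o1 x a).2.2.1)
    (fun x a => (o1 x a).2.2.2.1) (fun x a => (o1 x a).2.2.2.2) y o3
  have sb := p_at P w1
  have bJ := w4.self_of_nhds
  have c := g_cont hN.sp (e := e') (p := b) (a := fun p => fderiv ℝ b p (M.X e p))
    (b := fun p => N.X e' (b p)) (P.maps w1) sb.continuousAt
    ((at_fd sb).continuousAt.clm_apply (l.cont.continuousAt (l.isOpen.mem_nhds Jy)))
    ((l'.cont.continuousAt (l'.isOpen.mem_nhds (P.maps w1))).comp sb.continuousAt)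
  have is : ∀ᶠ z in 𝓝 (J y), z ∈ W ∧ Is (M.g e) (M.X e) (N.g e') (N.X e') b z := by
    filter_upwards [P.open'.mem_nhds w1, c.eventually (gt_mem_nhds (bJ ▸ w3))] with z a1 a2
    exact ⟨a1, p_at P a1, P.eq z a1, a2⟩
  have lχ : ∀ᶠ x in 𝓝 (inv e (J y)), LM (fun x => inv e' (b (co e x))) x := by
    have t : Tendsto (co e) (𝓝 (inv e (J y))) (𝓝 (J y)) := by
      have := co_cont (inv_mem Jy)
      rwa [ContinuousAt, co_inv Jy] at this
    filter_upwards [on_nhds (inv_mem Jy), t.eventually is] with x a1 a2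
    have m := P.maps a2.1
    refine K1.chart hM hN (((inv_cont m).comp a2.2.1.continuousAt).comp (co_cont a1)) a1
      (inv_mem m) (iso_iff.2 (a2.2.congr ?_))
    filter_upwards [P.open'.mem_nhds a2.1] with z hz
    rw [co_inv (w2 hz), co_inv (P.maps hz)]
  refine ⟨_, lχ, ?_⟩
  have t : Tendsto (fun x => inv e (J x)) (𝓝 y) (𝓝 (inv e (J y))) :=
    (inv_cont Jy).tendsto.comp sJ.continuous.continuousAt
  filter_upwards [e1, self_mem_nhdsWithin, nhdsWithin_le_nhds I, nhdsWithin_le_nhds n0,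
    nhdsWithin_le_nhds (t.eventually lχ.eventually_nhds),
    nhdsWithin_le_nhds w4.eventually_nhds] with x a1 a2 a3 a4 a5 a6
  have m := a1.self_of_nhds.1.1
  obtain ⟨n, n1, n2, S⟩ := a3.sp l m (hd.2 x a4).1
  have li : ∀ {φ : M.pt → N.pt} {z}, z ∈ tgt e → LM φ (inv e z) →
      LI (M.g e) (M.X e) (fun y => φ (inv e y)) z := fun a k => by
    have := P354CB40.li_of k (inv_mem a)
    rwa [co_inv a] at this
  have j := jetM hN.lor l (κ := fun z => inv e' (b (co e (inv e z)))) (κ' := fun z => ψ (inv e z))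
    (sJ.differentiable (by simp) x) S n1 n2 (by
      filter_upwards [a1, (inv_cont m).eventually a5] with z c1 c2
      exact ⟨c1.1.1, li c1.1.1 c2, li c1.1.1 (lm _ c1.2.1)⟩) (by
      filter_upwards [sJ.continuous.continuousAt.eventually a1, a6, eJ' x a2] with z c1 c2 c3
      rw [co_inv c1.1.1, c2, c3]
      exact inv_co c1.2.2)
  have t2 : Tendsto (co e) (𝓝 (inv e (J x))) (𝓝 (J x)) := by
    have := co_cont (inv_mem m)
    rwa [ContinuousAt, co_inv m] at this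
  filter_upwards [t2.eventually j, on_nhds (inv_mem m)] with p c1 c2
  simpa only [inv_co c2] using c1

end Vale.Agent.P354CB78
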