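import Vale.Agent.P354CB.Ez

/-!
KS1: the image of a punctured slice under an isometry with bounded first jet extends smoothly.
-/

open scoped ContDiff
open Set Filter Topology Metric

noncomputable section

namespace Vale.Agent.P354CB78

open Vale.Agent.P354n
open Vale.Agent.P354CB
open Vale.Agent.P354I (X)
open Vale.Agent.P354RC (at_df at_fd)

/-- Linear maps of the coordinate space, and first jets. -/
abbrev L4 : Type := R4 →L[ℝ] R4
abbrev E4 : Type := R4 × L4

/-- The right hand side of the jet system along J. -/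
def Xi (J : X → R4) (Γ Γ' : R4 → R4 →L[ℝ] L4) (q : X × E4) : X →L[ℝ] E4 :=
  (ContinuousLinearMap.inl ℝ R4 L4).comp (q.2.2.comp (fderiv ℝ J q.1)) +
    (ContinuousLinearMap.inr ℝ R4 L4).comp
      ((ContinuousLinearMap.compL ℝ R4 R4 R4 q.2.2).comp ((Γ (J q.1)).comp (fderiv ℝ J q.1)) -
        ((ContinuousLinearMap.compL ℝ R4 R4 R4).flip q.2.2).comp
          ((Γ' q.2.1).comp (q.2.2.comp (fderiv ℝ J q.1))))

theorem xi_cd {J : X → R4} {Γ Γ' : R4 → R4 →L[ℝ] L4} {q : X × E4} (hJ : ContDiff ℝ ∞ J)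
    (h : ContDiffAt ℝ ∞ Γ (J q.1)) (h' : ContDiffAt ℝ ∞ Γ' q.2.1) :
    ContDiffAt ℝ ∞ (Xi J Γ Γ') q := by
  have a : ContDiffAt ℝ ∞ (fun q : X × E4 => fderiv ℝ J q.1) q :=
    ((hJ.fderiv_right (m := ∞) (by simp)).comp contDiff_fst).contDiffAt
  have b : ContDiffAt ℝ ∞ (fun q : X × E4 => q.2.2) q := contDiffAt_snd.snd
  have c : ContDiffAt ℝ ∞ (fun q : X × E4 => Γ (J q.1)) q :=
    h.comp q (hJ.comp contDiff_fst).contDiffAt
  have c' : ContDiffAt ℝ ∞ (fun q : X × E4 => Γ' q.2.1) q := h'.comp q contDiffAt_snd.fst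
  exact (contDiffAt_const.clm_comp (b.clm_comp a)).add (contDiffAt_const.clm_comp
    (((contDiffAt_const.clm_apply b).clm_comp (c.clm_comp a)).sub
      ((contDiffAt_const.clm_apply b).clm_comp (c'.clm_comp (b.clm_comp a)))))

theorem ks1 (K3 : LK3) (hR : KR) : KS1 := by
  intro g D Xf g' D' Xf' l l' J y F K C sJ Jy Kc Ks ev
  obtain ⟨Γ, s, c⟩ := K3.gam l
  obtain ⟨Γ', s', c'⟩ := K3.gam l'
  have : ProperSpace L4 := FiniteDimensional.proper ℝ L4
  obtain ⟨J', a1, a2, a3⟩ := hR E4 y (fun x => (F (J x), fderiv ℝ F (J x))) (Xi J Γ Γ')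
    (K ×ˢ closedBall 0 C) (Kc.prod (isCompact_closedBall 0 C))
    (fun k hk => xi_cd sJ (s.contDiffAt (l.isOpen.mem_nhds Jy))
      (s'.contDiffAt (l'.isOpen.mem_nhds (Ks hk.1)))) (by
      filter_upwards [ev] with x ⟨a, b1, b2⟩
      refine ⟨⟨b1, mem_closedBall_zero_iff.2 b2⟩, ?_⟩
      obtain ⟨m, m', i⟩ := a.self_of_nhds
      have dJ := (sJ.differentiable (by simp) x).hasFDerivAt
      have d := ((at_df i.1).hasFDerivAt.comp x dJ).prodMk
        ((at_df (at_fd i.1)).hasFDerivAt.comp x dJ)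
      refine d.congr_fderiv (ContinuousLinearMap.ext fun u => Prod.ext ?_
        (ContinuousLinearMap.ext fun v => ?_))
      · simp [Xi]
      · have := K3.je l l' a ((c _ m fun z a b => Γ z a b).2 fun _ _ => rfl)
          ((c' _ m' fun z a b => Γ' z a b).2 fun _ _ => rfl) (fderiv ℝ J x u) v
        simpa [Xi] using this)
  exact ⟨fun x => (J' x).1, a1.fst, a2.1, fun x hx => congrArg Prod.fst (a3 x hx)⟩

end Vale.Agent.P354CB78
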